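import Vale.Agent.P314.Prog

open Vale.Agent.P314

theorem Vale.Agent.Results.P314.PolyHitting.result (F : Type*) [Field F] (enc : F → List Bool) :
    ∃ H : (n s : ℕ) → List (MatTuple F n),
      (∀ n s, IsHittingSet s (H n s)) ∧
      ∃ M : Turing.TM2ComputableInPolyTime encodeInput id
          (fun p : ℕ × ℕ => encodeSet enc (H p.1 p.2)),
        ∀ k, Finite (M.tm.Γ k) :=
  ⟨hitSet F, hitSet_hits F, Vale.Agent.TM.ex_polytime _ _ (prog_eval enc)⟩
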